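import Mathlib.Analysis.MeanInequalities
import Mathlib.Analysis.MeanInequalitiesPow
import Mathlib.Analysis.PSeries
import Mathlib.Data.Fin.Tuple.Sort
import Mathlib.LinearAlgebra.Multilinear.Basic
import Mathlib.Tactic

/-!
# Restricted bounds with a spread gain imply strong bounds

For a finite family of multilinear maps `L n` on functions, a bound of `∑ n, ‖L n F‖` for
functions bounded by one and supported on sets of at most `lam i` points, by
`B ∏ (lam i) ^ θ i * (lam a / lam b) ^ η` for all `a`, `b`, implies the bound by the norms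
`ℓ^{1/θ i}`.
-/

namespace Vale.Agent.P141.H314

open Finset

/-- finite Hoelder inequality -/
theorem holder_fin {ι κ : Type*} (s : Finset ι) (T : Finset κ) (V : ι → κ → ℝ) (θ : ι → ℝ)
    (hθ : ∀ i ∈ s, 0 < θ i) (h1 : ∑ i ∈ s, θ i = 1) (hV : ∀ i ∈ s, ∀ t ∈ T, 0 ≤ V i t) :
    ∑ t ∈ T, ∏ i ∈ s, V i t ≤ ∏ i ∈ s, (∑ t ∈ T, V i t ^ (1 / θ i)) ^ θ i := by
  have hA0 : ∀ i ∈ s, 0 ≤ ∑ t ∈ T, V i t ^ (1 / θ i) := fun i hi =>
    sum_nonneg fun t ht => Real.rpow_nonneg (hV i hi t ht) _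
  by_cases hz : ∃ i ∈ s, ∑ t ∈ T, V i t ^ (1 / θ i) = 0
  · obtain ⟨i, hi, hi0⟩ := hz
    have hθi := hθ i hi
    have hz' : ∀ t ∈ T, V i t = 0 := by
      intro t ht
      have h := (sum_eq_zero_iff_of_nonneg (fun t ht => Real.rpow_nonneg (hV i hi t ht) _)).1 hi0 t ht
      exact (Real.rpow_eq_zero (hV i hi t ht) (by positivity)).1 h
    have hL : ∑ t ∈ T, ∏ i ∈ s, V i t = 0 :=
      sum_eq_zero fun t ht => prod_eq_zero hi (hz' t ht)
    rw [hL]
    exact prod_nonneg fun j hj => Real.rpow_nonneg (hA0 j hj) _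
  · push Not at hz
    have hpos : ∀ i ∈ s, 0 < ∑ t ∈ T, V i t ^ (1 / θ i) := fun i hi =>
      lt_of_le_of_ne (hA0 i hi) (Ne.symm (hz i hi))
    set A : ι → ℝ := fun i => ∑ t ∈ T, V i t ^ (1 / θ i) with hA
    have key : ∀ t ∈ T, ∏ i ∈ s, V i t ≤ (∏ i ∈ s, A i ^ θ i) *
        ∑ i ∈ s, θ i * (V i t ^ (1 / θ i) / A i) := by
      intro t ht
      have h := Real.geom_mean_le_arith_mean_weighted s θ (fun i => V i t ^ (1 / θ i) / A i)
        (fun i hi => (hθ i hi).le) h1
        (fun i hi => div_nonneg (Real.rpow_nonneg (hV i hi t ht) _) (hpos i hi).le)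
      have h2 : ∏ i ∈ s, V i t = (∏ i ∈ s, A i ^ θ i) *
          ∏ i ∈ s, (V i t ^ (1 / θ i) / A i) ^ θ i := by
        rw [← prod_mul_distrib]
        refine prod_congr rfl fun i hi => ?_
        have h3 : A i ^ θ i ≠ 0 := (Real.rpow_pos_of_pos (hpos i hi) (θ i)).ne'
        have h4 : (V i t ^ (1 / θ i) / A i) ^ θ i = V i t / A i ^ θ i := by
          rw [Real.div_rpow (Real.rpow_nonneg (hV i hi t ht) _) (hA0 i hi),
            ← Real.rpow_mul (hV i hi t ht), one_div_mul_cancel (hθ i hi).ne', Real.rpow_one]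
        rw [h4, mul_div_cancel₀ _ h3]
      rw [h2]
      exact mul_le_mul_of_nonneg_left h
        (prod_nonneg fun i hi => Real.rpow_nonneg (hpos i hi).le _)
    calc ∑ t ∈ T, ∏ i ∈ s, V i t ≤ ∑ t ∈ T, (∏ i ∈ s, A i ^ θ i) *
          ∑ i ∈ s, θ i * (V i t ^ (1 / θ i) / A i) := sum_le_sum key
      _ = (∏ i ∈ s, A i ^ θ i) * ∑ i ∈ s, θ i * ((∑ t ∈ T, V i t ^ (1 / θ i)) / A i) := by
        rw [← mul_sum, sum_comm]
        congr 1
        refine sum_congr rfl fun i _ => ?_
        rw [sum_div, mul_sum]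
      _ = ∏ i ∈ s, A i ^ θ i := by
        have : ∑ i ∈ s, θ i * ((∑ t ∈ T, V i t ^ (1 / θ i)) / A i) = ∑ i ∈ s, θ i := by
          refine sum_congr rfl fun i hi => ?_
          rw [show (∑ t ∈ T, V i t ^ (1 / θ i)) / A i = 1 from div_self (hpos i hi).ne', mul_one]
        rw [this, h1, mul_one]

/-- distance of natural numbers -/
def dd (s t : ℕ) : ℕ := (s - t) + (t - s)

theorem dd_comm (s t : ℕ) : dd s t = dd t s := by unfold dd; omega

theorem sum_dd_le {q : ℝ} (h0 : 0 < q) (h1 : q < 1) (S t : ℕ) :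
    ∑ s ∈ range S, q ^ dd s t ≤ 2 / (1 - q) := by
  have hq : ∀ n : ℕ, ∑ i ∈ range n, q ^ i ≤ 1 / (1 - q) := by
    intro n
    rw [geom_sum_eq h1.ne, show (q ^ n - 1) / (q - 1) = (1 - q ^ n) / (1 - q) by
        rw [← neg_sub, ← neg_sub 1 q, neg_div_neg_eq]]
    exact div_le_div_of_nonneg_right (by have := pow_nonneg h0.le n; linarith) (by linarith)
  have hsub : ∑ s ∈ range S, q ^ dd s t ≤
      ∑ s ∈ range (t + 1), q ^ dd s t + ∑ s ∈ Ico (t + 1) (t + 1 + S), q ^ dd s t := by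
    rw [range_eq_Ico, range_eq_Ico, sum_Ico_consecutive _ (by omega) (by omega)]
    exact sum_le_sum_of_subset_of_nonneg (Ico_subset_Ico_right (by omega))
      fun _ _ _ => by positivity
  have e1 : ∑ s ∈ range (t + 1), q ^ dd s t = ∑ i ∈ range (t + 1), q ^ i := by
    rw [← sum_range_reflect]
    refine sum_congr rfl fun i hi => ?_
    rw [mem_range] at hi
    congr 1
    unfold dd
    omega
  have e2 : ∑ s ∈ Ico (t + 1) (t + 1 + S), q ^ dd s t ≤ ∑ i ∈ range (S + 1), q ^ i := by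
    rw [sum_Ico_eq_sum_range, show t + 1 + S - (t + 1) = S by omega, sum_range_succ' _ S]
    have : ∑ i ∈ range S, q ^ dd (t + 1 + i) t = ∑ i ∈ range S, q ^ (i + 1) := by
      refine sum_congr rfl fun i _ => ?_
      congr 1
      unfold dd
      omega
    rw [this]
    have : (0 : ℝ) ≤ q ^ 0 := by positivity
    linarith
  calc ∑ s ∈ range S, q ^ dd s t ≤ 1 / (1 - q) + 1 / (1 - q) := by
        refine hsub.trans (add_le_add (e1.le.trans (hq _)) (e2.trans (hq _)))
    _ = 2 / (1 - q) := by ring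

/-- Young's inequality for the kernel `q ^ |s - t|` -/
theorem young_dd {q : ℝ} (h0 : 0 < q) (h1 : q < 1) {p : ℝ} (hp : 1 ≤ p) (S : ℕ) (A : ℕ → ℝ)
    (hA : ∀ s, 0 ≤ A s) :
    ∑ t ∈ range S, (∑ s ∈ range S, A s * q ^ dd s t) ^ p ≤
      (2 / (1 - q)) ^ p * ∑ s ∈ range S, A s ^ p := by
  have hp0 : 0 < p := by linarith
  have hK : 0 ≤ 2 / (1 - q) := div_nonneg zero_le_two (by linarith)
  have hstep : ∀ t ∈ range S, (∑ s ∈ range S, A s * q ^ dd s t) ^ p ≤
      (2 / (1 - q)) ^ (p - 1) * ∑ s ∈ range S, q ^ dd s t * A s ^ p := by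
    intro t _
    have h := Real.inner_le_weight_mul_Lp_of_nonneg (range S) hp (fun s => q ^ dd s t) A
      (fun s => by positivity) (fun s => hA s)
    have hw : 0 ≤ ∑ s ∈ range S, q ^ dd s t := sum_nonneg fun _ _ => by positivity
    have hs : 0 ≤ ∑ s ∈ range S, q ^ dd s t * A s ^ p :=
      sum_nonneg fun s _ => mul_nonneg (by positivity) (Real.rpow_nonneg (hA s) _)
    have h2 : ∑ s ∈ range S, A s * q ^ dd s t = ∑ s ∈ range S, q ^ dd s t * A s :=
      sum_congr rfl fun s _ => mul_comm _ _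
    rw [h2]
    have hl : 0 ≤ ∑ s ∈ range S, q ^ dd s t * A s :=
      sum_nonneg fun s _ => mul_nonneg (by positivity) (hA s)
    refine (Real.rpow_le_rpow hl h hp0.le).trans ?_
    rw [Real.mul_rpow (Real.rpow_nonneg hw _) (Real.rpow_nonneg hs _), ← Real.rpow_mul hw,
      ← Real.rpow_mul hs, inv_mul_cancel₀ hp0.ne', Real.rpow_one,
      show (1 - p⁻¹) * p = p - 1 by field_simp]
    exact mul_le_mul_of_nonneg_right
      (Real.rpow_le_rpow hw (sum_dd_le h0 h1 S t) (by linarith)) hs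
  calc ∑ t ∈ range S, (∑ s ∈ range S, A s * q ^ dd s t) ^ p
      ≤ ∑ t ∈ range S, (2 / (1 - q)) ^ (p - 1) * ∑ s ∈ range S, q ^ dd s t * A s ^ p :=
        sum_le_sum hstep
    _ = (2 / (1 - q)) ^ (p - 1) * ∑ s ∈ range S, A s ^ p * ∑ t ∈ range S, q ^ dd t s := by
        rw [← mul_sum, sum_comm]
        congr 1
        refine sum_congr rfl fun s _ => ?_
        rw [mul_sum]
        refine sum_congr rfl fun t _ => ?_
        rw [mul_comm, dd_comm]
    _ ≤ (2 / (1 - q)) ^ (p - 1) * ∑ s ∈ range S, A s ^ p * (2 / (1 - q)) := by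
        refine mul_le_mul_of_nonneg_left (sum_le_sum fun s _ => ?_) (Real.rpow_nonneg hK _)
        exact mul_le_mul_of_nonneg_left (sum_dd_le h0 h1 S s) (Real.rpow_nonneg (hA s) _)
    _ = (2 / (1 - q)) ^ p * ∑ s ∈ range S, A s ^ p := by
        rw [← sum_mul]
        have hK' : 0 < 2 / (1 - q) := div_pos zero_lt_two (by linarith)
        rw [show (2 / (1 - q)) ^ p = (2 / (1 - q)) ^ (p - 1) * (2 / (1 - q)) by
          rw [← Real.rpow_add_one hK'.ne', sub_add_cancel]]
        ring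

/-- decreasing rearrangement of a function on a finite set -/
theorem exists_rearr {α : Type*} (T : Finset α) (g : α → ℝ) (hg : ∀ x ∈ T, 0 ≤ g x) :
    ∃ (r : α → ℕ) (h : ℕ → ℝ), Antitone h ∧ (∀ k, 0 ≤ h k) ∧ Set.InjOn r T ∧
      (∀ x ∈ T, g x = h (r x)) ∧ (∀ x ∈ T, r x < T.card) ∧
      ∀ p : ℝ, 0 < p → ∀ m, ∑ k ∈ range m, h k ^ p ≤ ∑ x ∈ T, g x ^ p := by
  classical
  set f : Fin T.card → ℝ := fun k => -g (T.equivFin.symm k) with hf
  have hmono := Tuple.monotone_sort f
  set σ := Tuple.sort f with hσ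
  -- the enumeration
  set e : Fin T.card → α := fun k => (T.equivFin.symm (σ k) : α) with he
  have heT : ∀ k, e k ∈ T := fun k => (T.equivFin.symm (σ k)).2
  have hanti : ∀ j k : Fin T.card, j ≤ k → g (e k) ≤ g (e j) := by
    intro j k hjk
    have := hmono hjk
    simp only [hf, Function.comp_apply] at this
    exact neg_le_neg_iff.1 this
  set h : ℕ → ℝ := fun k => if hk : k < T.card then g (e ⟨k, hk⟩) else 0 with hh
  set r : α → ℕ := fun x => if hx : x ∈ T then (σ.symm (T.equivFin ⟨x, hx⟩) : Fin T.card) else 0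
    with hr
  have her : ∀ x (hx : x ∈ T), e (σ.symm (T.equivFin ⟨x, hx⟩)) = x := by
    intro x hx
    simp [he]
  have hrx : ∀ x (hx : x ∈ T), r x = (σ.symm (T.equivFin ⟨x, hx⟩) : Fin T.card) := fun x hx => by
    simp only [hr, dif_pos hx]
  have hrlt : ∀ x ∈ T, r x < T.card := fun x hx => by
    rw [hrx x hx]
    exact (σ.symm (T.equivFin ⟨x, hx⟩)).2
  have h0 : ∀ k, 0 ≤ h k := by
    intro k
    simp only [hh]
    split_ifs with hk
    · exact hg _ (heT _)
    · exact le_rfl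
  refine ⟨r, h, ?_, h0, ?_, ?_, hrlt, ?_⟩
  · intro j k hjk
    simp only [hh]
    by_cases hk : k < T.card
    · rw [dif_pos hk, dif_pos (lt_of_le_of_lt hjk hk)]
      exact hanti _ _ hjk
    · rw [dif_neg hk]
      split_ifs with hj
      · exact hg _ (heT _)
      · exact le_rfl
  · intro x hx y hy hxy
    have hx' : x ∈ T := hx
    have hy' : y ∈ T := hy
    rw [hrx x hx', hrx y hy', Fin.val_inj] at hxy
    have := σ.symm.injective hxy
    have := T.equivFin.injective this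
    exact congrArg Subtype.val this
  · intro x hx
    have hlt := hrlt x hx
    simp only [hh, dif_pos hlt]
    congr 1
    conv_lhs => rw [← her x hx]
    congr 1
    apply Fin.ext
    exact (hrx x hx).symm
  · intro p hp m
    have hz : ∀ k, T.card ≤ k → h k ^ p = 0 := fun k hk => by
      simp only [hh, dif_neg (not_lt.2 hk), Real.zero_rpow hp.ne']
    have hle : ∑ k ∈ range m, h k ^ p ≤ ∑ k ∈ range T.card, h k ^ p := by
      rcases le_total m T.card with hm | hm
      · exact sum_le_sum_of_subset_of_nonneg (range_subset_range.2 hm)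
          fun k _ _ => Real.rpow_nonneg (h0 k) _
      · refine le_of_eq (sum_subset (range_subset_range.2 hm) fun k _ hk => ?_).symm
        exact hz k (by simpa using hk)
    refine hle.trans (le_of_eq ?_)
    rw [← Fin.sum_univ_eq_sum_range (fun k => h k ^ p) T.card, ← sum_coe_sort T]
    refine (Equiv.sum_comp (σ.trans T.equivFin.symm) fun x : T => g x ^ p) ▸ ?_
    refine sum_congr rfl fun k _ => ?_
    simp only [hh, dif_pos k.2]
    rfl

/-- distribution into dyadic ranks: sum of the `p`-th powers -/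
theorem sum_rearr_le (h : ℕ → ℝ) (hanti : Antitone h) (h0 : ∀ k, 0 ≤ h k) {p : ℝ} (hp : 0 < p)
    (S : ℕ) (W : ℝ) (hW : ∀ m, ∑ k ∈ range m, h k ^ p ≤ W) :
    ∑ s ∈ range S, (2 : ℝ) ^ s * h (2 ^ s - 1) ^ p ≤ 2 * W := by
  have hW0 : 0 ≤ W := by simpa using hW 0
  rcases S with _ | S
  · simpa using hW0
  · have hf : ∀ ⦃m n : ℕ⦄, 1 < m → m ≤ n → h (n - 1) ^ p ≤ h (m - 1) ^ p := fun m n _ hmn =>
      Real.rpow_le_rpow (h0 _) (hanti (by omega)) hp.le
    have key := Finset.sum_condensed_le (f := fun k => h (k - 1) ^ p) hf S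
    have e : ∑ s ∈ range (S + 1), (2 : ℝ) ^ s * h (2 ^ s - 1) ^ p
        = ∑ k ∈ range (S + 1), 2 ^ k • (fun k => h (k - 1) ^ p) (2 ^ k) := by
      refine sum_congr rfl fun k _ => ?_
      simp [nsmul_eq_mul]
    rw [e]
    refine key.trans ?_
    have h1 : (fun k => h (k - 1) ^ p) 1 + 2 • ∑ k ∈ Ico 2 (2 ^ S + 1), (fun k => h (k - 1) ^ p) k
        ≤ 2 * ∑ k ∈ range (2 ^ S), h k ^ p := by
      have e2 : ∑ k ∈ range (2 ^ S), h k ^ p = h 0 ^ p + ∑ k ∈ Ico 2 (2 ^ S + 1), h (k - 1) ^ p := by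
        have h2 : 1 ≤ 2 ^ S := Nat.one_le_two_pow
        rw [sum_Ico_eq_sum_range, show 2 ^ S = (2 ^ S - 1) + 1 by omega, sum_range_succ',
          add_comm]
        congr 1
        rw [show 2 ^ S - 1 + 1 + 1 - 2 = 2 ^ S - 1 by omega]
        refine sum_congr rfl fun k _ => ?_
        congr 2
        omega
      rw [e2, nsmul_eq_mul]
      have := Real.rpow_nonneg (h0 0) p
      push_cast
      linarith
    exact h1.trans (by linarith [hW (2 ^ S)])

/-- **Restricted bounds with a spread gain imply strong bounds.** -/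
theorem strong {𝕜 : Type*} [RCLike 𝕜] {ι : Type*} [Fintype ι] [DecidableEq ι] [Nonempty ι]
    {X : ι → Type*} {N : Type*} (θ : ι → ℝ) {η : ℝ} (hη : 0 < η) (hθ : ∀ i, 0 < θ i)
    (h1 : ∑ i, θ i = 1) :
    ∃ C : ℝ, 0 ≤ C ∧ ∀ (S : Finset N) (L : N → MultilinearMap 𝕜 (fun i => X i → 𝕜) 𝕜) (B : ℝ),
      0 ≤ B →
      (∀ (E : ∀ i, Finset (X i)) (lam : ι → ℝ) (F : ∀ i, X i → 𝕜), (∀ i, 1 ≤ lam i) →
        (∀ i, ((E i).card : ℝ) ≤ lam i) → (∀ i x, ‖F i x‖ ≤ 1) → (∀ i, ∀ x ∉ E i, F i x = 0) →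
        ∀ a b, ∑ n ∈ S, ‖L n F‖ ≤ B * (∏ i, lam i ^ θ i) * (lam a / lam b) ^ η) →
      ∀ (T : ∀ i, Finset (X i)) (F : ∀ i, X i → 𝕜), (∀ i, ∀ x ∉ T i, F i x = 0) →
        ∑ n ∈ S, ‖L n F‖ ≤ C * B * ∏ i, (∑ x ∈ T i, ‖F i x‖ ^ (1 / θ i)) ^ θ i := by
  classical
  set d : ℕ := Fintype.card ι with hd
  have hd0 : 0 < d := Fintype.card_pos
  set q : ℝ := (2 : ℝ) ^ (-η / d) with hq
  have hq0 : 0 < q := Real.rpow_pos_of_pos two_pos _
  have hq1 : q < 1 := Real.rpow_lt_one_of_one_lt_of_neg one_lt_two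
    (div_neg_of_neg_of_pos (by linarith) (by exact_mod_cast hd0))
  have hqd : q ^ d = (2 : ℝ) ^ (-η) := by
    rw [hq, ← Real.rpow_natCast, ← Real.rpow_mul two_pos.le, div_mul_cancel₀]
    exact_mod_cast hd0.ne'
  set K : ℝ := 2 / (1 - q) with hK
  have hK0 : 0 ≤ K := div_nonneg zero_le_two (by linarith)
  have hθ1 : ∀ i, θ i ≤ 1 := fun i => by
    rw [← h1]
    exact single_le_sum (fun j _ => (hθ j).le) (mem_univ i)
  refine ⟨∏ i, K * 2 ^ θ i, prod_nonneg fun i _ => mul_nonneg hK0 (Real.rpow_nonneg two_pos.le _),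
    fun S L B hB hres T F hF => ?_⟩
  -- rearrangements
  have hex := fun i => exists_rearr (T i) (fun x => ‖F i x‖) fun x _ => norm_nonneg _
  choose r h hanti h0 hinj hgr hrlt hsum using hex
  set S₀ : ℕ := (∑ i, (T i).card) + 1 with hS₀
  -- pieces
  set G : ∀ i, ℕ → X i → 𝕜 := fun i s x => if Nat.log 2 (r i x + 1) = s then F i x else 0 with hG
  set M : ι → ℕ → ℝ := fun i s => h i (2 ^ s - 1) with hM
  have hM0 : ∀ i s, 0 ≤ M i s := fun i s => h0 i _
  have hFG : ∀ i, F i = ∑ s ∈ range S₀, G i s := by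
    intro i
    funext x
    rw [Finset.sum_apply]
    simp only [hG]
    by_cases hx : x ∈ T i
    · rw [sum_ite_eq, if_pos]
      rw [mem_range]
      have h2 := hrlt i x hx
      have h3 : Nat.log 2 (r i x + 1) ≤ r i x + 1 := Nat.log_le_self _ _
      have h4 : (T i).card ≤ ∑ i, (T i).card :=
        single_le_sum (f := fun i => (T i).card) (fun _ _ => Nat.zero_le _) (mem_univ i)
      omega
    · rw [hF i x hx]
      simp
  have hGle : ∀ i s x, ‖G i s x‖ ≤ M i s := by
    intro i s x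
    simp only [hG, hM]
    split_ifs with hs
    · by_cases hx : x ∈ T i
      · rw [hgr i x hx]
        refine hanti i ?_
        have : 2 ^ s ≤ r i x + 1 := by
          rw [← hs]
          exact Nat.pow_log_le_self 2 (by omega)
        omega
      · rw [hF i x hx, norm_zero]
        exact h0 i _
    · rw [norm_zero]
      exact h0 i _
  -- supports
  set E : ∀ i, ℕ → Finset (X i) := fun i s => (T i).filter fun x => Nat.log 2 (r i x + 1) = s
    with hE
  have hEcard : ∀ i s, ((E i s).card : ℝ) ≤ (2 : ℝ) ^ s := by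
    intro i s
    have h2 : (E i s).card ≤ (Ico (2 ^ s - 1) (2 ^ (s + 1) - 1)).card := by
      refine card_le_card_of_injOn (r i) ?_ ?_
      · intro x hx
        simp only [hE, coe_filter, Set.mem_ofPred_eq] at hx
        have h3 : 2 ^ s ≤ r i x + 1 := by
          rw [← hx.2]
          exact Nat.pow_log_le_self 2 (by omega)
        have h4 : r i x + 1 < 2 ^ (s + 1) := by
          rw [← hx.2]
          exact Nat.lt_pow_succ_log_self one_lt_two _
        simp only [coe_Ico, Set.mem_Ico]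
        omega
      · intro x hx y hy hxy
        simp only [hE, coe_filter, Set.mem_ofPred_eq] at hx hy
        exact hinj i hx.1 hy.1 hxy
    have h5 : (Ico (2 ^ s - 1) (2 ^ (s + 1) - 1)).card = 2 ^ s := by
      rw [Nat.card_Ico, pow_succ]
      have := Nat.one_le_two_pow (n := s)
      omega
    rw [h5] at h2
    exact_mod_cast h2
  have hGsupp : ∀ i s, ∀ x ∉ E i s, G i s x = 0 := by
    intro i s x hx
    simp only [hE, mem_filter, not_and] at hx
    simp only [hG]
    split_ifs with hs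
    · by_contra hne
      exact hx (by by_contra hxT; exact hne (hF i x hxT)) hs
    · rfl
  -- one piece
  obtain ⟨i₀⟩ := ‹Nonempty ι›
  have hone : ∀ s : ι → ℕ, s ∈ Fintype.piFinset (fun _ : ι => range S₀) →
      ∑ n ∈ S, ‖L n fun i => G i (s i)‖ ≤
        B * ∑ t ∈ range S₀, ∏ i, (M i (s i) * (2 : ℝ) ^ (s i * θ i)) * q ^ dd (s i) t := by
    intro s hs
    have hs' : ∀ i, s i < S₀ := fun i => mem_range.1 (Fintype.mem_piFinset.1 hs i)
    set φ : ∀ i, X i → 𝕜 := fun i x => ((M i (s i) : ℝ) : 𝕜)⁻¹ * G i (s i) x with hφ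
    have hscale : (fun i => G i (s i)) = fun i => ((M i (s i) : ℝ) : 𝕜) • φ i := by
      funext i x
      simp only [hφ, Pi.smul_apply, smul_eq_mul]
      by_cases hM1 : M i (s i) = 0
      · have := hGle i (s i) x
        rw [hM1] at this
        have hz : G i (s i) x = 0 := norm_le_zero_iff.1 this
        rw [hM1, hz]
        simp
      · have : ((M i (s i) : ℝ) : 𝕜) ≠ 0 := by exact_mod_cast hM1
        rw [mul_inv_cancel_left₀ this]
    have hφ1 : ∀ i x, ‖φ i x‖ ≤ 1 := by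
      intro i x
      simp only [hφ, norm_mul, norm_inv, RCLike.norm_ofReal, abs_of_nonneg (hM0 i (s i))]
      rcases (hM0 i (s i)).eq_or_lt with hz | hz
      · rw [← hz]; simp
      · rw [inv_mul_le_one₀ hz]
        exact hGle i (s i) x
    have hφ2 : ∀ i, ∀ x ∉ E i (s i), φ i x = 0 := by
      intro i x hx
      simp only [hφ, hGsupp i (s i) x hx, mul_zero]
    -- extreme indices
    obtain ⟨a, -, ha⟩ := exists_min_image univ s ⟨i₀, mem_univ i₀⟩
    obtain ⟨b, -, hb⟩ := exists_max_image univ s ⟨i₀, mem_univ i₀⟩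
    have hbd := hres (fun i => E i (s i)) (fun i => (2 : ℝ) ^ (s i)) φ
      (fun i => one_le_pow₀ one_le_two) (fun i => hEcard i (s i)) hφ1 hφ2 a b
    have hspread : ((2 : ℝ) ^ (s a) / (2 : ℝ) ^ (s b)) ^ η ≤ ∏ i, q ^ dd (s i) (s i₀) := by
      have hab : s a ≤ s b := ha b (mem_univ b)
      have e1 : ((2 : ℝ) ^ (s a) / (2 : ℝ) ^ (s b)) ^ η = (q ^ d) ^ (s b - s a) := by
        rw [hqd, ← Real.rpow_natCast ((2 : ℝ) ^ (-η)), ← Real.rpow_mul two_pos.le,
          ← Real.rpow_natCast 2 (s a), ← Real.rpow_natCast 2 (s b), ← Real.rpow_sub two_pos,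
          ← Real.rpow_mul two_pos.le]
        congr 1
        rw [Nat.cast_sub hab]
        ring
      rw [e1, ← pow_mul, prod_pow_eq_pow_sum]
      refine pow_le_pow_of_le_one hq0.le hq1.le ?_
      calc ∑ i, dd (s i) (s i₀) ≤ ∑ i : ι, (s b - s a) := by
            refine sum_le_sum fun i _ => ?_
            have h2 := ha i (mem_univ i)
            have h3 := hb i (mem_univ i)
            have h4 := ha i₀ (mem_univ i₀)
            have h5 := hb i₀ (mem_univ i₀)
            unfold dd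
            omega
        _ = d * (s b - s a) := by rw [sum_const, smul_eq_mul, card_univ]
    have hLs : ∀ n, ‖L n fun i => G i (s i)‖ = (∏ i, M i (s i)) * ‖L n φ‖ := by
      intro n
      rw [hscale, MultilinearMap.map_smul_univ, norm_smul, norm_prod]
      congr 1
      refine prod_congr rfl fun i _ => ?_
      rw [RCLike.norm_ofReal, abs_of_nonneg (hM0 i (s i))]
    have hMp : 0 ≤ ∏ i, M i (s i) := prod_nonneg fun i _ => hM0 i _
    have e3 : ∀ i, ((2 : ℝ) ^ (s i)) ^ θ i = (2 : ℝ) ^ (s i * θ i) := fun i => by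
      rw [← Real.rpow_natCast, ← Real.rpow_mul two_pos.le]
    calc ∑ n ∈ S, ‖L n fun i => G i (s i)‖ = (∏ i, M i (s i)) * ∑ n ∈ S, ‖L n φ‖ := by
          rw [mul_sum]
          exact sum_congr rfl fun n _ => hLs n
      _ ≤ (∏ i, M i (s i)) * (B * (∏ i, ((2 : ℝ) ^ (s i)) ^ θ i) *
            ∏ i, q ^ dd (s i) (s i₀)) := by
          refine mul_le_mul_of_nonneg_left (hbd.trans ?_) hMp
          exact mul_le_mul_of_nonneg_left hspread (mul_nonneg hB
            (prod_nonneg fun i _ => Real.rpow_nonneg (by positivity) _))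
      _ = B * ∏ i, (M i (s i) * (2 : ℝ) ^ (s i * θ i)) * q ^ dd (s i) (s i₀) := by
          rw [prod_mul_distrib, prod_mul_distrib, prod_congr rfl fun i _ => e3 i]
          ring
      _ ≤ _ := by
          refine mul_le_mul_of_nonneg_left ?_ hB
          exact single_le_sum
            (f := fun t => ∏ i, (M i (s i) * (2 : ℝ) ^ (s i * θ i)) * q ^ dd (s i) t)
            (fun t _ => prod_nonneg fun i _ => mul_nonneg
              (mul_nonneg (hM0 i _) (Real.rpow_nonneg two_pos.le _)) (by positivity))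
            (mem_range.2 (hs' i₀))
  -- sum of the pieces
  have hA0 : ∀ i s, 0 ≤ M i s * (2 : ℝ) ^ (s * θ i) := fun i s =>
    mul_nonneg (hM0 i _) (Real.rpow_nonneg two_pos.le _)
  have hexp : ∑ n ∈ S, ‖L n F‖ ≤ ∑ s ∈ Fintype.piFinset (fun _ : ι => range S₀),
      ∑ n ∈ S, ‖L n fun i => G i (s i)‖ := by
    rw [sum_comm]
    refine sum_le_sum fun n _ => ?_
    have : F = fun i => ∑ s ∈ range S₀, G i s := funext hFG
    rw [this, MultilinearMap.map_sum_finset]
    exact norm_sum_le _ _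
  calc ∑ n ∈ S, ‖L n F‖ ≤ ∑ s ∈ Fintype.piFinset (fun _ : ι => range S₀),
        B * ∑ t ∈ range S₀, ∏ i, (M i (s i) * (2 : ℝ) ^ (s i * θ i)) * q ^ dd (s i) t :=
        hexp.trans (sum_le_sum hone)
    _ = B * ∑ t ∈ range S₀, ∏ i, ∑ s ∈ range S₀, (M i s * (2 : ℝ) ^ (s * θ i)) * q ^ dd s t := by
        rw [← mul_sum, sum_comm]
        congr 1
        refine sum_congr rfl fun t _ => ?_
        rw [prod_univ_sum]
    _ ≤ B * ∏ i, (∑ t ∈ range S₀, (∑ s ∈ range S₀,
          (M i s * (2 : ℝ) ^ (s * θ i)) * q ^ dd s t) ^ (1 / θ i)) ^ θ i := by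
        refine mul_le_mul_of_nonneg_left ?_ hB
        exact holder_fin univ (range S₀) _ θ (fun i _ => hθ i) h1
          fun i _ t _ => sum_nonneg fun s _ => mul_nonneg (hA0 i s) (by positivity)
    _ ≤ B * ∏ i, (K * 2 ^ θ i) * (∑ x ∈ T i, ‖F i x‖ ^ (1 / θ i)) ^ θ i := by
        refine mul_le_mul_of_nonneg_left (prod_le_prod (fun i _ => ?_) fun i _ => ?_) hB
        · exact Real.rpow_nonneg (sum_nonneg fun t _ => Real.rpow_nonneg
            (sum_nonneg fun s _ => mul_nonneg (hA0 i s) (by positivity)) _) _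
        · have hp1 : 1 ≤ 1 / θ i := (one_le_div (hθ i)).2 (hθ1 i)
          have hp0 : 0 < 1 / θ i := by linarith
          have hy := young_dd hq0 hq1 hp1 S₀ (fun s => M i s * (2 : ℝ) ^ (s * θ i)) (hA0 i)
          have hr := sum_rearr_le (h i) (hanti i) (h0 i) hp0 S₀ _ (hsum i _ hp0)
          have e4 : ∑ s ∈ range S₀, (M i s * (2 : ℝ) ^ (s * θ i)) ^ (1 / θ i)
              = ∑ s ∈ range S₀, (2 : ℝ) ^ s * h i (2 ^ s - 1) ^ (1 / θ i) := by
            refine sum_congr rfl fun s _ => ?_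
            rw [Real.mul_rpow (hM0 i s) (Real.rpow_nonneg two_pos.le _),
              ← Real.rpow_mul two_pos.le, mul_assoc, mul_one_div_cancel (hθ i).ne', mul_one,
              Real.rpow_natCast, mul_comm]
          rw [e4] at hy
          have hW0 : 0 ≤ ∑ x ∈ T i, ‖F i x‖ ^ (1 / θ i) :=
            sum_nonneg fun x _ => Real.rpow_nonneg (norm_nonneg _) _
          calc (∑ t ∈ range S₀, (∑ s ∈ range S₀,
                (M i s * (2 : ℝ) ^ (s * θ i)) * q ^ dd s t) ^ (1 / θ i)) ^ θ i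
              ≤ (K ^ (1 / θ i) * (2 * ∑ x ∈ T i, ‖F i x‖ ^ (1 / θ i))) ^ θ i := by
                refine Real.rpow_le_rpow (sum_nonneg fun t _ => Real.rpow_nonneg
                  (sum_nonneg fun s _ => mul_nonneg (hA0 i s) (by positivity)) _) ?_ (hθ i).le
                exact hy.trans (mul_le_mul_of_nonneg_left hr (Real.rpow_nonneg hK0 _))
            _ = (K * 2 ^ θ i) * (∑ x ∈ T i, ‖F i x‖ ^ (1 / θ i)) ^ θ i := by
                rw [Real.mul_rpow (Real.rpow_nonneg hK0 _) (by positivity),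
                  Real.mul_rpow two_pos.le hW0, ← Real.rpow_mul hK0,
                  one_div_mul_cancel (hθ i).ne', Real.rpow_one]
                ring
    _ = _ := by
        rw [prod_mul_distrib]
        ring

end Vale.Agent.P141.H314
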